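import Mathlib

/-!
# P261, row (D1): an `Ext-p`-complete group with finite cokernel of `p` is a finitely generated
`ℤ_p`-module
-/

namespace Vale.Agent.P261.H59

open Finset

variable {p : ℕ} {A : Type*} [AddCommGroup A]

/-- `A` is a finitely generated `ℤ_p`-module -/
def FG (p : ℕ) [Fact p.Prime] (A : Type*) [AddCommGroup A] : Prop :=
  ∃ _ : Module ℤ_[p] A, Module.Finite ℤ_[p] A

/-- `A` is `Ext-p`-complete -/
def ExtC (p : ℕ) (A : Type*) [AddCommGroup A] : Prop :=
  ∀ a : ℕ → A, ∃! b : ℕ → A, ∀ n, b n = a n + (p : ℤ) • b (n + 1)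

/-- the cokernel of `p` is finite -/
def Cok (p : ℕ) (A : Type*) [AddCommGroup A] : Prop :=
  Finite (A ⧸ (zsmulAddGroupHom (p : ℤ) : A →+ A).range)

/-- the solution `b` -/
noncomputable def sg (h : ExtC p A) (a : ℕ → A) : ℕ → A := (h a).choose

theorem sg_spec (h : ExtC p A) (a : ℕ → A) (n : ℕ) :
    sg h a n = a n + (p : ℤ) • sg h a (n + 1) := (h a).choose_spec.1 n

theorem uniq (h : ExtC p A) (a b c : ℕ → A) (hb : ∀ n, b n = a n + (p : ℤ) • b (n + 1))
    (hc : ∀ n, c n = a n + (p : ℤ) • c (n + 1)) : b = c :=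
  (h a).unique hb hc

theorem vanish (h : ExtC p A) (P : A → Prop)
    (hP : ∀ x, P x → ∃ y, P y ∧ x = (p : ℤ) • y) (x : A) (hx : P x) : x = 0 := by
  choose f hf hf' using hP
  let g : {x // P x} → {x // P x} := fun x => ⟨f x.1 x.2, hf x.1 x.2⟩
  let b : ℕ → A := fun n => (g^[n] ⟨x, hx⟩).1
  have hb : ∀ n, b n = (0 : ℕ → A) n + (p : ℤ) • b (n + 1) := by
    intro n
    have h1 : b (n + 1) = (g (g^[n] ⟨x, hx⟩)).1 := by
      show (g^[n + 1] ⟨x, hx⟩).1 = _
      rw [Function.iterate_succ_apply']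
    rw [h1]
    have h2 := hf' (g^[n] ⟨x, hx⟩).1 (g^[n] ⟨x, hx⟩).2
    rw [Pi.zero_apply, zero_add]
    exact h2
  have h0 : b = fun _ => 0 := uniq h 0 b (fun _ => 0) hb (fun n => by simp)
  have := congrFun h0 0
  simpa [b] using this

variable [hp : Fact p.Prime]

theorem exists_dec (z : ℤ_[p]) : ∃ (c : ℤ) (w : ℤ_[p]), z = (c : ℤ_[p]) + (p : ℤ) • w := by
  have h := PadicInt.appr_spec 1 z
  rw [pow_one, Ideal.mem_span_singleton] at h
  obtain ⟨w, hw⟩ := h
  refine ⟨(z.appr 1 : ℕ), w, ?_⟩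
  rw [zsmul_eq_mul]
  push_cast
  linear_combination hw

/-- first digit -/
noncomputable def cc (z : ℤ_[p]) : ℤ := (exists_dec z).choose
/-- the rest -/
noncomputable def tt (z : ℤ_[p]) : ℤ_[p] := (exists_dec z).choose_spec.choose

theorem dec (z : ℤ_[p]) : z = (cc z : ℤ_[p]) + (p : ℤ) • tt z :=
  (exists_dec z).choose_spec.choose_spec

/-- the action of `ℤ_p` -/
noncomputable def act (h : ExtC p A) (z : ℤ_[p]) (a : A) : A :=
  sg h (fun n => cc (tt^[n] z) • a) 0

theorem act_step (h : ExtC p A) (z : ℤ_[p]) (a : A) :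
    act h z a = cc z • a + (p : ℤ) • act h (tt z) a := by
  unfold act
  rw [sg_spec]
  have h1 : (fun n => sg h (fun n => cc (tt^[n] z) • a) (n + 1)) =
      sg h (fun n => cc (tt^[n] (tt z)) • a) := by
    refine uniq h (fun n => cc (tt^[n] (tt z)) • a) _ _ ?_ (sg_spec h _)
    intro n
    rw [sg_spec h _ (n + 1), Function.iterate_succ_apply]
  have h2 := congrFun h1 0
  simp only [zero_add] at h2 ⊢
  rw [h2]
  simp

theorem act_add (h : ExtC p A) (z : ℤ_[p]) (a b : A) :
    act h z (a + b) = act h z a + act h z b := by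
  have := vanish h (fun x => ∃ z, x = act h z (a + b) - (act h z a + act h z b)) ?_ _ ⟨z, rfl⟩
  · exact sub_eq_zero.1 this
  rintro x ⟨z, rfl⟩
  refine ⟨_, ⟨tt z, rfl⟩, ?_⟩
  rw [act_step h z (a + b), act_step h z a, act_step h z b]
  rw [smul_add, smul_sub, smul_add]
  abel

theorem act_aux (h : ExtC p A) (z w : ℤ_[p]) (k : ℤ) (a : A) :
    act h (z + w + k) a = act h z a + act h w a + k • a := by
  have := vanish h (fun x => ∃ (z w : ℤ_[p]) (k : ℤ),
    x = act h (z + w + k) a - (act h z a + act h w a + k • a)) ?_ _ ⟨z, w, k, rfl⟩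
  · exact sub_eq_zero.1 this
  rintro x ⟨z, w, k, rfl⟩
  set u : ℤ_[p] := z + w + k with hu
  have hz := dec z
  have hw := dec w
  have hu' := dec u
  have hp0 : (p : ℤ_[p]) ≠ 0 := by
    exact_mod_cast hp.out.ne_zero
  have key : (p : ℤ_[p]) * (tt u - tt z - tt w) = ((cc z + cc w + k - cc u : ℤ) : ℤ_[p]) := by
    simp only [zsmul_eq_mul, Int.cast_natCast] at hz hw hu'
    push_cast
    linear_combination hz + hw - hu' + hu
  have hd : ((p : ℤ_[p]) ^ 1) ∣ ((cc z + cc w + k - cc u : ℤ) : ℤ_[p]) :=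
    ⟨tt u - tt z - tt w, by rw [pow_one, key]⟩
  rw [PadicInt.pow_p_dvd_int_iff, pow_one] at hd
  obtain ⟨m, hm⟩ := hd
  have hmt : tt u = tt z + tt w + (m : ℤ_[p]) := by
    rw [hm] at key
    push_cast at key
    have := mul_left_cancel₀ hp0 key
    linear_combination this
  refine ⟨_, ⟨tt z, tt w, m, rfl⟩, ?_⟩
  rw [act_step h u a, act_step h z a, act_step h w a, ← hmt]
  have hk : k = cc u - cc z - cc w + p * m := by linear_combination hm
  rw [smul_sub, smul_add, smul_add]
  conv_lhs => rw [hk]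
  rw [add_smul, sub_smul, sub_smul, mul_smul]
  abel

theorem act_zero_left (h : ExtC p A) (a : A) : act h 0 a = 0 := by
  have := act_aux h 0 0 0 a
  simp only [add_zero, Int.cast_zero, zero_smul] at this
  exact left_eq_add.1 this

theorem act_add_left (h : ExtC p A) (z w : ℤ_[p]) (a : A) :
    act h (z + w) a = act h z a + act h w a := by
  have := act_aux h z w 0 a
  simpa using this

theorem act_int (h : ExtC p A) (k : ℤ) (a : A) : act h (k : ℤ_[p]) a = k • a := by
  have := act_aux h 0 0 k a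
  rw [act_zero_left] at this
  simpa using this

/-- the action as a bilinear map -/
noncomputable def actH (h : ExtC p A) : ℤ_[p] →+ (A →+ A) where
  toFun z := AddMonoidHom.mk' (act h z) (act_add h z)
  map_zero' := by
    ext a
    exact act_zero_left h a
  map_add' z w := by
    ext a
    exact act_add_left h z w a

theorem actH_apply (h : ExtC p A) (z : ℤ_[p]) (a : A) : actH h z a = act h z a := rfl

theorem act_zsmul (h : ExtC p A) (z : ℤ_[p]) (k : ℤ) (a : A) :
    act h z (k • a) = k • act h z a := by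
  have := map_zsmul (actH h z) k a
  exact this

theorem act_zsmul_left (h : ExtC p A) (z : ℤ_[p]) (k : ℤ) (a : A) :
    act h (k • z) a = k • act h z a := by
  have h1 := map_zsmul (actH h) k z
  have h2 := DFunLike.congr_fun h1 a
  exact h2

theorem act_mul (h : ExtC p A) (z w : ℤ_[p]) (a : A) :
    act h (z * w) a = act h z (act h w a) := by
  have := vanish h (fun x => ∃ z w : ℤ_[p],
    x = act h (z * w) a - act h z (act h w a)) ?_ _ ⟨z, w, rfl⟩
  · exact sub_eq_zero.1 this
  rintro x ⟨z, w, rfl⟩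
  refine ⟨_, ⟨z, tt w, rfl⟩, ?_⟩
  have h1 : z * w = cc w • z + (p : ℤ) • (z * tt w) := by
    have hw := dec w
    simp only [zsmul_eq_mul, Int.cast_natCast] at hw ⊢
    linear_combination z * hw
  rw [h1, act_add_left, act_zsmul_left, act_zsmul_left, act_step h w a, act_add, act_zsmul,
    act_zsmul, smul_sub]
  abel

/-- the `ℤ_p`-module structure -/
@[reducible] noncomputable def padicModule (h : ExtC p A) : Module ℤ_[p] A where
  smul := act h
  one_smul a := by
    show act h 1 a = a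
    have := act_int h 1 a
    simpa using this
  mul_smul z w a := act_mul h z w a
  smul_zero z := by
    show act h z 0 = 0
    exact map_zero (actH h z)
  smul_add z a b := act_add h z a b
  add_smul z w a := act_add_left h z w a
  zero_smul a := act_zero_left h a

theorem exists_series (ε : ℕ → ℤ) :
    ∃ z : ℕ → ℤ_[p], ∀ n, z n = (ε n : ℤ_[p]) + (p : ℤ) • z (n + 1) := by
  have hs : ∀ n, Summable (fun k : ℕ => (ε (n + k) : ℤ_[p]) * (p : ℤ_[p]) ^ k) := by
    intro n
    have hr : Summable (fun k : ℕ => ((p : ℝ)⁻¹) ^ k) := by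
      apply summable_geometric_of_lt_one
      · positivity
      · exact inv_lt_one_of_one_lt₀ (by exact_mod_cast hp.out.one_lt)
    refine Summable.of_norm_bounded hr ?_
    intro k
    rw [norm_mul, norm_pow, PadicInt.norm_p]
    have h1 : ‖(ε (n + k) : ℤ_[p])‖ ≤ 1 := PadicInt.norm_le_one _
    have h2 : (0 : ℝ) ≤ ((p : ℝ)⁻¹) ^ k := by positivity
    nlinarith
  refine ⟨fun n => ∑' k : ℕ, (ε (n + k) : ℤ_[p]) * (p : ℤ_[p]) ^ k, fun n => ?_⟩
  show ∑' k : ℕ, (ε (n + k) : ℤ_[p]) * (p : ℤ_[p]) ^ k =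
    (ε n : ℤ_[p]) + (p : ℤ) • ∑' k : ℕ, (ε (n + 1 + k) : ℤ_[p]) * (p : ℤ_[p]) ^ k
  rw [(hs n).tsum_eq_zero_add, zsmul_eq_mul, ← (hs (n + 1)).tsum_mul_left]
  congr 1
  · simp
  · refine tsum_congr fun k => ?_
    have : n + (k + 1) = n + 1 + k := by ring
    rw [this, pow_succ]
    push_cast
    ring

theorem fg_of_extC (h : ExtC p A) (hc : Cok p A) : FG p A := by
  classical
  refine ⟨padicModule h, ?_⟩
  let _ := padicModule h
  have hsm : ∀ (z : ℤ_[p]) (a : A), z • a = act h z a := fun _ _ => rfl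
  unfold Cok at hc
  set R : AddSubgroup A := (zsmulAddGroupHom (p : ℤ) : A →+ A).range with hR
  have := hc
  have : Fintype (A ⧸ R) := Fintype.ofFinite _
  -- one division step
  have hstep : ∀ a : A, ∃ a' : A, a = (QuotientAddGroup.mk a : A ⧸ R).out + (p : ℤ) • a' := by
    intro a
    have h1 : (QuotientAddGroup.mk ((QuotientAddGroup.mk a : A ⧸ R).out) : A ⧸ R) =
      QuotientAddGroup.mk a := Quotient.out_eq _
    rw [QuotientAddGroup.eq] at h1
    rw [hR] at h1
    obtain ⟨a', ha'⟩ := h1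
    refine ⟨a', ?_⟩
    have h2 : (p : ℤ) • a' = -(QuotientAddGroup.mk a : A ⧸ R).out + a := ha'
    rw [h2]
    abel
  choose nx hnx using hstep
  rw [Module.finite_def, Submodule.fg_def]
  refine ⟨Set.range (Quotient.out : (A ⧸ R) → A), Set.finite_range _, ?_⟩
  rw [eq_top_iff]
  intro a _
  let s : ℕ → A := fun n => nx^[n] a
  have hs : ∀ n, s n = (QuotientAddGroup.mk (s n) : A ⧸ R).out + (p : ℤ) • s (n + 1) := by
    intro n
    have : s (n + 1) = nx (s n) := by
      show nx^[n + 1] a = nx (nx^[n] a)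
      rw [Function.iterate_succ_apply']
    rw [this]
    exact hnx (s n)
  have hex := fun q : A ⧸ R =>
    exists_series (p := p) (fun n => if (QuotientAddGroup.mk (s n) : A ⧸ R) = q then 1 else 0)
  choose z hz using hex
  let b : ℕ → A := fun n => ∑ q : A ⧸ R, act h (z q n) q.out
  have hb : ∀ n, b n = (QuotientAddGroup.mk (s n) : A ⧸ R).out + (p : ℤ) • b (n + 1) := by
    intro n
    show ∑ q : A ⧸ R, act h (z q n) q.out = (QuotientAddGroup.mk (s n) : A ⧸ R).out +
      (p : ℤ) • ∑ q : A ⧸ R, act h (z q (n + 1)) q.out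
    have h1 : ∀ q : A ⧸ R, act h (z q n) q.out =
        (if (QuotientAddGroup.mk (s n) : A ⧸ R) = q then q.out else 0) +
          (p : ℤ) • act h (z q (n + 1)) q.out := by
      intro q
      rw [hz q n, act_add_left, act_zsmul_left, act_int]
      split_ifs <;> simp
    rw [Finset.sum_congr rfl fun q _ => h1 q, Finset.sum_add_distrib, Finset.smul_sum]
    simp
  have he : s = b := uniq h (fun n => (QuotientAddGroup.mk (s n) : A ⧸ R).out) s b hs hb
  have h0 : a = b 0 := by
    have := congrFun he 0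
    exact this
  rw [h0]
  show ∑ q : A ⧸ R, act h (z q 0) q.out ∈ _
  refine Submodule.sum_mem _ fun q _ => ?_
  rw [← hsm]
  exact Submodule.smul_mem _ _ (Submodule.subset_span ⟨q, rfl⟩)

end Vale.Agent.P261.H59
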